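import Mathlib
import Vale.Agent.Lib.P162.Defs
import Vale.Agent.Lib.P162.RDefs
import Vale.Agent.Lib.P162.helper95.KmatBasic

/-!
# P162, pool job R4 (helper96, second copy): the product kernel `Bmat`

`Bmat h j` moves coordinate `0` by the free one-card kernel `Wmat h` and the other `j`
coordinates by the `j`-card kernel `Kmat h j`, independently.  Its powers factor in the same way,
its entries are nonnegative and its rows sum to one.
-/

namespace Vale.Agent.Lib.P162.H96

open Finset BigOperators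

/-- Sum over functions on `Fin (k + 1)` split along the first coordinate. -/
theorem sum_cons_split {α : Type*} [Fintype α] [DecidableEq α] (k : ℕ)
    (f : (Fin (k + 1) → α) → ℝ) :
    ∑ y : Fin (k + 1) → α, f y = ∑ q : α, ∑ y' : Fin k → α, f (Fin.cons q y') := by
  rw [← Fintype.sum_prod_type']
  refine (Fintype.sum_equiv (Fin.consEquiv (fun _ : Fin (k + 1) => α)).symm _ _ ?_)
  intro y
  show f y = f (Fin.cons (y 0) (Fin.tail y))
  rw [Fin.cons_self_tail]

/-- Entries of the free one-card kernel are nonnegative. -/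
theorem Wmat_nonneg_h96 (h : ℕ) [NeZero h] (p q : ZMod (2 * h)) : 0 ≤ Wmat h p q := by
  show 0 ≤ (if q = 2 * p then (1 / 2 : ℝ) else 0) + (if q = 2 * p + 1 then (1 / 2 : ℝ) else 0)
  split_ifs <;> norm_num

/-- Rows of the free one-card kernel sum to one. -/
theorem Wmat_row_sum_h96 (h : ℕ) [NeZero h] (p : ZMod (2 * h)) : ∑ q, Wmat h p q = 1 := by
  show ∑ q : ZMod (2 * h),
    ((if q = 2 * p then (1 / 2 : ℝ) else 0) + (if q = 2 * p + 1 then (1 / 2 : ℝ) else 0)) = 1
  rw [Finset.sum_add_distrib, Finset.sum_ite_eq', Finset.sum_ite_eq', if_pos (Finset.mem_univ _),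
    if_pos (Finset.mem_univ _)]
  norm_num

theorem Bmat_pow (h j : ℕ) [NeZero h] (m : ℕ) (z y : Fin (j + 1) → ZMod (2 * h)) :
    (Bmat h j ^ m) z y
      = (Wmat h ^ m) (z 0) (y 0) * (Kmat h j ^ m) (Fin.tail z) (Fin.tail y) := by
  classical
  induction m generalizing y with
  | zero =>
    rw [pow_zero, pow_zero, pow_zero, Matrix.one_apply, Matrix.one_apply, Matrix.one_apply]
    by_cases hzy : z = y
    · subst hzy
      rw [if_pos rfl, if_pos rfl, if_pos rfl, one_mul]
    · rw [if_neg hzy]
      by_cases h0 : z 0 = y 0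
      · have ht : Fin.tail z ≠ Fin.tail y := by
          intro ht
          apply hzy
          rw [← Fin.cons_self_tail z, ← Fin.cons_self_tail y, h0, ht]
        rw [if_neg ht, mul_zero]
      · rw [if_neg h0, zero_mul]
  | succ m ih =>
    rw [pow_succ, pow_succ, pow_succ, Matrix.mul_apply, Matrix.mul_apply, Matrix.mul_apply]
    rw [sum_cons_split j (fun u => (Bmat h j ^ m) z u * Bmat h j u y), Finset.sum_mul_sum]
    refine Finset.sum_congr rfl fun p _ => Finset.sum_congr rfl fun w _ => ?_
    show (Bmat h j ^ m) z (Fin.cons p w) * Bmat h j (Fin.cons p w) y = _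
    rw [ih, Bmat_apply, Fin.cons_zero, Fin.tail_cons]
    ring

theorem Bmat_nonneg (h j : ℕ) [NeZero h] (z y : Fin (j + 1) → ZMod (2 * h)) :
    0 ≤ Bmat h j z y := by
  rw [Bmat_apply, Kmat_apply_r]
  exact mul_nonneg (Wmat_nonneg_h96 h _ _) (H95.stepProb_nonneg h j _ _)

theorem Bmat_sum (h j : ℕ) [NeZero h] (z : Fin (j + 1) → ZMod (2 * h)) :
    ∑ y, Bmat h j z y = 1 := by
  classical
  rw [sum_cons_split j (fun y => Bmat h j z y)]
  have e : ∀ q : ZMod (2 * h), ∀ w : Fin j → ZMod (2 * h),
      Bmat h j z (Fin.cons q w) = Wmat h (z 0) q * stepProb h j (Fin.tail z) w := by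
    intro q w
    rw [Bmat_apply, Fin.cons_zero, Fin.tail_cons, Kmat_apply_r]
  rw [Finset.sum_congr rfl fun q _ => Finset.sum_congr rfl fun w _ => e q w,
    ← Finset.sum_mul_sum, Wmat_row_sum_h96, H95.stepProb_sum, one_mul]

end Vale.Agent.Lib.P162.H96
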